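import Vale.Agent.P216.Ch2.Ns
import Vale.Agent.P216.Ch2.H456.PTriv
import Vale.Agent.P216.H250.Pi0P
import Vale.Agent.P216.Ch2.H901.Fam
import Vale.Agent.P216.Ch2.H962.SlH

/-!
# Multiplication by a loop, and the spur (P216, block B43, item (5))

* `hp_lmul`, `hp_rmul`: the left and the right multiplication of based Moore loops by a fixed loop
  `q` which is joined to the constant loop are homotopic to the inclusion (loss of time
  independent of `t`).
* `spur`: the homotopy from `q⁻¹ * c₀ * q` to the constant loop, in families.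
-/

set_option linter.all false

open Set Filter Topology BoundedContinuousFunction

namespace Vale.Agent.P216.Ch2.H388

open Vale.Agent.P216.H388

open Vale.Agent.P216.PS Vale.Agent.P216.MV337 Vale.Agent.P216.Ch2.MV337 Vale.Agent.P216.Ch2.H456
open Vale.Agent.P216.AS (IsMap IsHtpy Ha res pull)
open Vale.Agent.P216.Ch2.H901 (Hp tr on)

section mul

variable {M : Type} [MetricSpace M] {x₀ : M} {L L' K m t τ : ℝ} {q : ℝ → M} {g p : ℝ →ᵇ M}

/-- the curves of the homotopy -/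
noncomputable def lshf (m τ : ℝ) (p g : ℝ → M) (u : ℝ) : M := lj m p g (u + τ)

theorem lip_lshf {p g : ℝ → M} (hp : Lip p) (hg : Lip g) (h0 : g 0 = p 0) :
    Lip (lshf m τ p g) :=
  (lip_lj hp hg h0).comp fun u v => by rw [add_sub_add_right_eq_sub]

theorem lshf_left {p g : ℝ → M} (hp : ∀ u, L' ≤ u → p u = x₀) (hg : ∀ u ≤ 0, g u = x₀)
    (h0 : g 0 = p 0) (hL' : 0 ≤ L') (h1 : τ ≤ m - L') {u : ℝ} (hu : u ≤ 0) :
    lshf m τ p g u = x₀ := by
  unfold lshf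
  rcases le_total (u + τ) m with h | h
  · rw [lj_left h, hp _ (by linarith)]
  · rw [lj_right h0 h, hg _ (by linarith)]

theorem lshf_right {p g : ℝ → M} (hg : ∀ u, t ≤ u → g u = x₀) (ht : 0 ≤ t)
    (h0 : g 0 = p 0) (hτ : 0 ≤ τ) {u : ℝ} (hu : t + m ≤ u) :
    lshf m τ p g u = x₀ := by
  unfold lshf
  rw [lj_right h0 (by linarith), hg _ (by linarith)]

variable [CompactSpace M]

/-- as a point of the path space -/
noncomputable def lsh (m τ : ℝ) (p g : ℝ →ᵇ M) : ℝ →ᵇ M := mo (lshf m τ p g)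

theorem lsh_mem (hp : p ∈ P x₀ x₀ L') (hg : g ∈ P x₀ x₀ t) (ht : 0 ≤ t) (h0 : 0 ≤ τ)
    (hL' : 0 ≤ L') (h1 : τ ≤ m - L') : lsh m τ p g ∈ P x₀ x₀ (t + m) := by
  have e : g 0 = p 0 := by rw [eq_left hp le_rfl, eq_left hg le_rfl]
  exact mo_mem (lip_lshf hp.1 hg.1 e) (fun u hu => lshf_left hp.2.2 hg.2.1 e hL' h1 hu)
    fun u hu => lshf_right hg.2.2 ht e h0 hu

theorem continuousOn_lsh {S : Type*} [TopologicalSpace S] {A : Set S} {p W : S → ℝ →ᵇ M}
    {τ : S → ℝ} {T : ℝ} (hT : 0 ≤ T) (hp : ContinuousOn p A) (hW : ContinuousOn W A)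
    (hτ : ContinuousOn τ A) (hlp : ∀ s ∈ A, Lip (p s)) (hlW : ∀ s ∈ A, Lip (W s))
    (h0 : ∀ s ∈ A, W s 0 = p s 0) (hm : ∀ s ∈ A, lsh m (τ s) (p s) (W s) ∈ PP M T) :
    ContinuousOn (fun s => lsh m (τ s) (p s) (W s)) A := by
  refine continuousOn_of_eval hT hm fun u => ?_
  refine ContinuousOn.congr (f := fun s => lj m (p s) (W s) (u + τ s)) ?_ fun s hs =>
    (lip_lshf (hlp s hs) (hlW s hs) (h0 s hs)).mo_apply u
  unfold lj
  have hu : ContinuousOn (fun s => u + τ s) A := continuousOn_const.add hτ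
  refine PS.ContinuousOn.if_le' (continuousOn_eval hp (continuousOn_const.sub hu))
    (continuousOn_eval hW (hu.sub continuousOn_const)) hu continuousOn_const fun s hs he => ?_
  rw [he, sub_self, h0 s hs]

/-- **Left multiplication** by a loop joined to the constant loop. -/
theorem hp_lmul (hL : 0 ≤ L) (hK : 0 ≤ K) (ht : 0 ≤ t) (hq : mo q ∈ P x₀ x₀ L)
    (hql : Lip q) (hj : JoinedIn (P x₀ x₀ (L + K)) (mo q) (cst x₀)) :
    Hp (P x₀ x₀ t) ∅ (P x₀ x₀ (t + L + K)) ∅ (fun g => mo (lj L q g)) id := by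
  obtain ⟨γ, hγ⟩ := hj
  set Γ : ℝ → ℝ →ᵇ M := fun s => γ (projIcc 0 1 zero_le_one s) with hΓ
  have hΓc : Continuous Γ := γ.continuous.comp continuous_projIcc
  have hΓm : ∀ s, Γ s ∈ P x₀ x₀ (L + K) := fun s => hγ _
  have hΓ0 : ∀ s ≤ 0, Γ s = mo q := fun s hs => by
    rw [hΓ]; show γ (projIcc 0 1 zero_le_one s) = _
    rw [projIcc_of_le_left _ hs]; exact γ.source
  have hΓ1 : ∀ s, 1 ≤ s → Γ s = cst x₀ := fun s hs => by
    rw [hΓ]; show γ (projIcc 0 1 zero_le_one s) = _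
    rw [projIcc_of_right_le _ hs]; exact γ.target
  set T : ℝ → ℝ := fun s => max 0 (K * (1 - 3 * s)) + max 0 ((L + K) * (3 * s - 2)) with hT
  have hTc : Continuous T := by rw [hT]; fun_prop
  have hT0 : ∀ s, 0 ≤ T s := fun s => add_nonneg (le_max_left _ _) (le_max_left _ _)
  have hmem : ∀ s ∈ Icc (0:ℝ) 1, ∀ g ∈ P x₀ x₀ t,
      lsh (L + K) (T s) (Γ (3 * s - 1)) g ∈ P x₀ x₀ (t + (L + K)) := by
    intro s hs g hg
    rcases le_total (3 * s) 1 with h1 | h1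
    · have e : T s = K * (1 - 3 * s) := by
        rw [hT]; show max 0 (K * (1 - 3 * s)) + max 0 ((L + K) * (3 * s - 2)) = _
        rw [max_eq_right (mul_nonneg hK (by linarith)),
          max_eq_left (mul_nonpos_of_nonneg_of_nonpos (by linarith) (by linarith)), add_zero]
      rw [hΓ0 _ (by linarith)]
      refine lsh_mem (L' := L) hq hg ht (hT0 s) hL ?_
      rw [e]
      nlinarith [hs.1]
    rcases le_total (3 * s) 2 with h2 | h2
    · have e : T s = 0 := by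
        rw [hT]; show max 0 (K * (1 - 3 * s)) + max 0 ((L + K) * (3 * s - 2)) = _
        rw [max_eq_left (mul_nonpos_of_nonneg_of_nonpos hK (by linarith)),
          max_eq_left (mul_nonpos_of_nonneg_of_nonpos (by linarith) (by linarith)), add_zero]
      rw [e]
      exact lsh_mem (L' := L + K) (hΓm _) hg ht le_rfl (by linarith) (by linarith)
    · have e : T s = (L + K) * (3 * s - 2) := by
        rw [hT]; show max 0 (K * (1 - 3 * s)) + max 0 ((L + K) * (3 * s - 2)) = _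
        rw [max_eq_left (mul_nonpos_of_nonneg_of_nonpos hK (by linarith)),
          max_eq_right (mul_nonneg (by linarith) (by linarith)), zero_add]
      rw [hΓ1 _ (by linarith)]
      refine lsh_mem (L' := 0) (cst_mem _ _) hg ht (hT0 s) le_rfl ?_
      rw [e]
      nlinarith [hs.2]
  refine hp_of_cont (isCompact_P _ _ _)
    (F := fun p => lsh (L + K) (T p.1) (Γ (3 * p.1 - 1)) p.2) ?_ ?_ ?_ ?_ ?_
  · refine continuousOn_lsh (T := t + (L + K)) (by linarith) ?_ continuousOn_snd ?_ ?_ ?_ ?_ ?_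
    · exact (hΓc.comp (by fun_prop)).continuousOn
    · exact (hTc.comp continuous_fst).continuousOn
    · exact fun p hp => (hΓm _).1
    · exact fun p hp => hp.2.1
    · intro p hp
      rw [eq_left hp.2 le_rfl, eq_left (hΓm _) le_rfl]
    · exact fun p hp => P_subset_PP (hmem _ hp.1 _ hp.2)
  · intro s hs g hg
    rw [add_assoc]
    exact hmem s hs g hg
  · exact fun s hs g hg => hg.elim
  · intro g hg
    show lsh (L + K) (T 0) (Γ (3 * 0 - 1)) g = mo (lj L q g)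
    have e : T 0 = K := by
      rw [hT]; show max 0 (K * (1 - 3 * 0)) + max 0 ((L + K) * (3 * 0 - 2)) = _
      rw [max_eq_right (by nlinarith), max_eq_left (by nlinarith)]
      ring
    rw [e, hΓ0 _ (by norm_num)]
    unfold lsh
    congr 1
    funext u
    have h0 : g 0 = (mo q) 0 := by rw [eq_left hg le_rfl, eq_left hq le_rfl]
    have h0' : g 0 = q 0 := by rw [h0, hql.mo_apply]
    show lj (L + K) (mo q) g (u + K) = lj L q g u
    rcases le_total u L with h | h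
    · rw [lj_left (by linarith), lj_left h, hql.mo_apply]
      congr 1; ring
    · rw [lj_right h0 (by linarith), lj_right h0' h]
      congr 1; ring
  · intro g hg
    show lsh (L + K) (T 1) (Γ (3 * 1 - 1)) g = g
    have e : T 1 = L + K := by
      rw [hT]; show max 0 (K * (1 - 3 * 1)) + max 0 ((L + K) * (3 * 1 - 2)) = _
      rw [max_eq_left (by nlinarith), max_eq_right (by nlinarith)]
      ring
    rw [e, hΓ1 _ (by norm_num)]
    unfold lsh
    have : lshf (L + K) (L + K) (cst x₀) g = fun u => g u := by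
      funext u
      show lj (L + K) (fun _ => x₀) g (u + (L + K)) = g u
      rw [lj_const g x₀ hg.2.1, add_sub_cancel_right]
    rw [this, mo_self]

/-- **Right multiplication** by a loop joined to the constant loop. -/
theorem hp_rmul (hL : 0 ≤ L) (hK : 0 ≤ K) (ht : 0 ≤ t) (hq : mo q ∈ P x₀ x₀ L)
    (hql : Lip q) (hj : JoinedIn (P x₀ x₀ (L + K)) (mo q) (cst x₀)) :
    Hp (P x₀ x₀ t) ∅ (P x₀ x₀ (t + L + K)) ∅ (fun g => mo (catf t g q)) id := by
  obtain ⟨γ, hγ⟩ := hj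
  set Γ : ℝ → ℝ →ᵇ M := fun s => γ (projIcc 0 1 zero_le_one s) with hΓ
  have hΓc : Continuous Γ := γ.continuous.comp continuous_projIcc
  have hΓm : ∀ s, Γ s ∈ P x₀ x₀ (L + K) := fun s => hγ _
  have hΓ0 : Γ 0 = mo q := by
    rw [hΓ]; show γ (projIcc 0 1 zero_le_one 0) = _
    rw [projIcc_of_le_left _ le_rfl]; exact γ.source
  have hΓ1 : Γ 1 = cst x₀ := by
    rw [hΓ]; show γ (projIcc 0 1 zero_le_one 1) = _
    rw [projIcc_of_right_le _ le_rfl]; exact γ.target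
  have hmem : ∀ s, ∀ g ∈ P x₀ x₀ t, cat t g (Γ s) ∈ P x₀ x₀ (t + (L + K)) := fun s g hg =>
    cat_mem ht (by linarith) hg (hΓm s)
  refine hp_of_cont (isCompact_P _ _ _) (F := fun p => cat t p.2 (Γ p.1)) ?_ ?_ ?_ ?_ ?_
  · refine continuousOn_cat (t := t + (L + K)) (by linarith) continuousOn_snd
      (hΓc.comp continuous_fst).continuousOn continuousOn_const ?_ ?_ ?_ ?_
    · exact fun p hp => hp.2.1
    · exact fun p hp => (hΓm _).1
    · intro p hp
      rw [eq_right hp.2 le_rfl, eq_left (hΓm _) le_rfl]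
    · exact fun p hp => P_subset_PP (hmem _ _ hp.2)
  · intro s hs g hg
    rw [add_assoc]
    exact hmem s g hg
  · exact fun s hs g hg => hg.elim
  · intro g hg
    show cat t g (Γ 0) = mo (catf t g q)
    rw [hΓ0]
    unfold cat
    have : (fun u => (mo q) u) = q := funext fun u => hql.mo_apply u
    show mo (catf t g (fun u => (mo q) u)) = _
    rw [this]
  · intro g hg
    show cat t g (Γ 1) = g
    rw [hΓ1]
    unfold cat
    have : catf t g (cst x₀) = fun u => g u := by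
      funext u
      have h0 : g t = (cst x₀) 0 := by rw [eq_right hg le_rfl, cst_apply]
      rcases le_total u t with h | h
      · rw [catf_left h]
      · rw [catf_right h0 h, cst_apply, eq_right hg h]
    rw [this, mo_self]

/-! ### The spur -/

/-- the curves of the homotopy from `q⁻¹ * c₀ * q` to the constant curve -/
def spurf (L t τ : ℝ) (q : ℝ → M) (u : ℝ) : M := q (max (max (L - u) (u - t - L)) τ)

/-- as a point of the path space -/
noncomputable def spur (L t τ : ℝ) (q : ℝ → M) : ℝ →ᵇ M := mo (spurf L t τ q)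

omit [CompactSpace M] in
theorem lip_spurf (hq : Lip q) : Lip (spurf L t τ q) := by
  refine hq.comp fun u v => ?_
  refine (abs_max_sub_max_le_max _ _ _ _).trans (max_le ?_ (by simp))
  refine (abs_max_sub_max_le_max _ _ _ _).trans (max_le (le_of_eq ?_) (le_of_eq ?_))
  · rw [abs_sub_comm u v]; congr 1; ring
  · congr 1; ring

theorem spur_mem (hq : Lip q) (hqL : ∀ u, L ≤ u → q u = x₀) : spur L t τ q ∈ P x₀ x₀ (t + 2 * L) := by
  refine mo_mem (lip_spurf hq) (fun u hu => hqL _ ?_) fun u hu => hqL _ ?_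
  · exact le_trans (by linarith) ((le_max_left _ _).trans (le_max_left _ _))
  · exact le_trans (by linarith) ((le_max_right _ _).trans (le_max_left _ _))

theorem spur_end (hqL : ∀ u, L ≤ u → q u = x₀) (hτ : L ≤ τ) : spur L t τ q = cst x₀ := by
  unfold spur
  have : spurf L t τ q = fun u => (cst x₀) u := by
    funext u
    exact hqL _ (hτ.trans (le_max_right _ _))
  rw [this, mo_self]

theorem spur_zero (hq : Lip q) (hq0 : ∀ u ≤ 0, q u = x₀) (ht : 0 ≤ t) (hL : 0 ≤ L) :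
    spur L t 0 q = mo (catf (t + L) (mo (lj L q (cst x₀))) q) := by
  unfold spur
  congr 1
  funext u
  have e0 : (cst x₀) 0 = q 0 := by rw [cst_apply, hq0 0 le_rfl]
  have hl : Lip (lj L q (cst x₀)) := lip_lj hq (lip_cst x₀) e0
  have e1 : (mo (lj L q (cst x₀))) (t + L) = q 0 := by
    rw [hl.mo_apply, lj_right e0 (by linarith), cst_apply, hq0 0 le_rfl]
  show q (max (max (L - u) (u - t - L)) 0) = _
  rcases le_total u (t + L) with h | h
  · rw [catf_left h, hl.mo_apply]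
    rcases le_total u L with h' | h'
    · rw [lj_left h', max_eq_left (by linarith : u - t - L ≤ L - u), max_eq_left (by linarith)]
    · rw [lj_right e0 h', cst_apply, max_eq_right (max_le (by linarith) (by linarith)),
        hq0 0 le_rfl]
  · rw [catf_right e1 h]
    rw [max_eq_right (by linarith : L - u ≤ u - t - L), max_eq_left (by linarith)]
    congr 1; ring

theorem continuousOn_spur {S : Type*} [TopologicalSpace S] {A : Set S} {Q : S → ℝ → M}
    {τ : S → ℝ} (ht : 0 ≤ t) (hL : 0 ≤ L)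
    (hQ : ∀ φ : S → ℝ, ContinuousOn φ A → ContinuousOn (fun s => Q s (φ s)) A)
    (hτ : ContinuousOn τ A) (hl : ∀ s ∈ A, Lip (Q s)) (hqL : ∀ s ∈ A, ∀ u, L ≤ u → Q s u = x₀) :
    ContinuousOn (fun s => spur L t (τ s) (Q s)) A := by
  refine continuousOn_of_eval (t := t + 2 * L) (by linarith)
    (fun s hs => P_subset_PP (spur_mem (hl s hs) (hqL s hs))) fun u => ?_
  refine ContinuousOn.congr (f := fun s => spurf L t (τ s) (Q s) u) ?_ fun s hs =>
    (lip_spurf (hl s hs)).mo_apply u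
  exact hQ _ (continuousOn_const.sup hτ)

end mul


/-! ### The loops of the tracks -/

section tracks

variable {M : Type} [MetricSpace M] {Dp Dm : Set M} {x₀ x : M} {ℓ t : ℝ} {Tp Tm : M → ℝ → M}

/-- The loop at `x₀` through `x` (`456`'s `sig`). -/
noncomputable def sgq (Tp Tm : M → ℝ → M) (ℓ : ℝ) (x : M) : ℝ → M :=
  catf ℓ (fun u => Tp x (ℓ - u)) (Tm x)

theorem sgq_meet (hp : Tr Dp x₀ ℓ Tp) (hm : Tr Dm x₀ ℓ Tm) (hx : x ∈ Dp) (hx' : x ∈ Dm) :
    (fun u => Tp x (ℓ - u)) ℓ = Tm x 0 := by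
  show Tp x (ℓ - ℓ) = Tm x 0
  rw [sub_self, hp.left x hx 0 le_rfl, hm.left x hx' 0 le_rfl]

theorem lip_sgq (hp : Tr Dp x₀ ℓ Tp) (hm : Tr Dm x₀ ℓ Tm) (hx : x ∈ Dp) (hx' : x ∈ Dm) :
    Lip (sgq Tp Tm ℓ x) :=
  lip_catf (hp.liprev hx) (hm.lip x hx') (sgq_meet hp hm hx hx')

theorem sgq_left (hp : Tr Dp x₀ ℓ Tp) (hx : x ∈ Dp) {u : ℝ} (hu : u ≤ 0) :
    sgq Tp Tm ℓ x u = x₀ := by
  unfold sgq
  rw [catf_left (hu.trans hp.nonneg)]
  exact hp.right x hx _ (by linarith)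

theorem sgq_right (hp : Tr Dp x₀ ℓ Tp) (hm : Tr Dm x₀ ℓ Tm) (hx : x ∈ Dp) (hx' : x ∈ Dm) {u : ℝ}
    (hu : 2 * ℓ ≤ u) : sgq Tp Tm ℓ x u = x₀ := by
  unfold sgq
  rw [catf_right (f := fun u => Tp x (ℓ - u)) (sgq_meet hp hm hx hx') (by linarith [hp.nonneg])]
  exact hm.right x hx' _ (by linarith)

theorem sgq_cont (hp : Tr Dp x₀ ℓ Tp) (hm : Tr Dm x₀ ℓ Tm) {S : Type*} [TopologicalSpace S]
    {A : Set S} {X : S → M} {φ : S → ℝ} (hX : ContinuousOn X A) (hXp : ∀ s ∈ A, X s ∈ Dp)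
    (hXm : ∀ s ∈ A, X s ∈ Dm) (hφ : ContinuousOn φ A) :
    ContinuousOn (fun s => sgq Tp Tm ℓ (X s) (φ s)) A := by
  unfold sgq catf
  refine PS.ContinuousOn.if_le' (hp.cont' hX hXp (continuousOn_const.sub hφ))
    (hm.cont' hX hXm (hφ.sub continuousOn_const)) hφ continuousOn_const fun s hs he => ?_
  rw [he, sub_self]
  show Tp (X s) (ℓ - ℓ) = _
  rw [sub_self, hp.left _ (hXp s hs) 0 le_rfl, hm.left _ (hXm s hs) 0 le_rfl]

variable [CompactSpace M]

theorem sgq_mem (hp : Tr Dp x₀ ℓ Tp) (hm : Tr Dm x₀ ℓ Tm) (hx : x ∈ Dp) (hx' : x ∈ Dm) :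
    mo (sgq Tp Tm ℓ x) ∈ P x₀ x₀ (2 * ℓ) :=
  mo_mem (lip_sgq hp hm hx hx') (fun u hu => sgq_left hp hx hu)
    fun u hu => sgq_right hp hm hx hx' hu

/-- **(e)** Left and right multiplication by the loop through a fixed point `x ∈ Dp ∩ Dm` are
homotopic to the inclusion, with a loss of time `2 ℓ + K` independent of `t` and of `x`. -/
theorem exists_hp_mul [SimplyConnectedSpace M] {ρ : ℝ} (hρ : 0 < ρ) (hU : LS.UniqSeg M ρ)
    (hp : Tr Dp x₀ ℓ Tp) (hm : Tr Dm x₀ ℓ Tm) :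
    ∃ K, 0 ≤ K ∧ ∀ x ∈ Dp, x ∈ Dm → ∀ t, 0 ≤ t →
      Hp (P x₀ x₀ t) ∅ (P x₀ x₀ (t + 2 * ℓ + K)) ∅
        (fun g => mo (lj (2 * ℓ) (sgq Tp Tm ℓ x) g)) id ∧
      Hp (P x₀ x₀ t) ∅ (P x₀ x₀ (t + 2 * ℓ + K)) ∅
        (fun g => mo (catf t g (sgq Tp Tm ℓ x))) id := by
  obtain ⟨K, hK, -, hj⟩ := H250.pi0 hρ hU
  have hl : 0 ≤ 2 * ℓ := by linarith [hp.nonneg]
  refine ⟨K, hK, fun x hx hx' t ht => ?_⟩
  have h1 := hj x₀ x₀ (2 * ℓ) hl _ (sgq_mem hp hm hx hx') _ (cst_mem x₀ _)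
  exact ⟨hp_lmul hl hK ht (sgq_mem hp hm hx hx') (lip_sgq hp hm hx hx') h1,
    hp_rmul hl hK ht (sgq_mem hp hm hx hx') (lip_sgq hp hm hx hx') h1⟩

end tracks

/-- A map homotopic to the inclusion induces the restriction. -/
theorem pull_eq_res_of_hp {k : Type} [Field k] {E : Type} [PseudoMetricSpace E] {A B B' : Set E}
    {f : E → E} (H : Hp A ∅ B ∅ f id) (hB : B ⊆ B') (hAB : A ⊆ B')
    (hf : IsMap (tr E) (tr E) A B' f) (n : ℕ) :
    pull (on k) hf n = res (a := tr E) (χ := on k) hAB n := by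
  obtain ⟨D, hD, -, h0, h1⟩ := H
  have hD' : IsHtpy (tr E) (tr E) A B' D := hD.mono le_rfl fun s hs x hx => hB (hD.mapsX s hs hx)
  have e := AS.pull_homotopy (k := k) (χ := on k) hD' n
  rw [AS.pull_congr hf hD'.zero fun x hx => (h0 hx).symm, ← e]
  exact AS.pull_eq_res hAB hD'.one fun x hx => h1 hx

/-! ### The spur in families over the cube -/

section family

open Vale.Agent.P216.Ch2.H962

variable {M : Type} [MetricSpace M] [CompactSpace M] {Dp Dm : Set M} {x₀ xb : M} {ℓ t : ℝ}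
  {Tp Tm : M → ℝ → M} {m : ℕ} {X : (Fin m → ℝ) → M}

/-- **(f)** The homotopy from `sR (t + 2 ℓ) (X v) (sL (X v) c₀)` to the constant loop. -/
theorem spur_family {E : Type} [PseudoMetricSpace E] (A : Set E) (hp : Tr Dp x₀ ℓ Tp)
    (hm : Tr Dm x₀ ℓ Tm) (hX : ContinuousOn X (Bg m)) (hXp : ∀ v ∈ Bg m, X v ∈ Dp)
    (hXm : ∀ v ∈ Bg m, X v ∈ Dm) (hXo : ∀ v ∈ Bg m, Out v → X v = xb) (ht : 0 ≤ t) :
    ∃ (D : (E × (Fin m → ℝ)) × ℝ → (ℝ →ᵇ M)) (D₀ : E × ℝ → (ℝ →ᵇ M)),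
      UM ((A ×ˢ Bg m) ×ˢ Icc (0 : ℝ) 1) (P x₀ x₀ (t + 4 * ℓ)) D ∧
      (∀ y, ∀ v ∈ Bg m, Out v → ∀ s, D ((y, v), s) = D₀ (y, s)) ∧
      (∀ y, ∀ v ∈ Bg m, D ((y, v), 0) =
        mo (catf (t + 2 * ℓ) (mo (lj (2 * ℓ) (sgq Tp Tm ℓ (X v)) (cst x₀)))
          (sgq Tp Tm ℓ (X v)))) ∧
      ∀ y, ∀ v ∈ Bg m, D ((y, v), 1) = cst x₀ := by
  have hn := hp.nonneg
  refine ⟨fun p => spur (2 * ℓ) t (2 * ℓ * p.2) (sgq Tp Tm ℓ (X p.1.2)),
    fun p => spur (2 * ℓ) t (2 * ℓ * p.2) (sgq Tp Tm ℓ xb), ?_, ?_, ?_, ?_⟩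
  · -- uniform continuity, through the compact `Bg m ×ˢ [0, 1]`
    have h1 : UM (Bg m ×ˢ Icc (0 : ℝ) 1) (P x₀ x₀ (t + 4 * ℓ))
        fun p : (Fin m → ℝ) × ℝ => spur (2 * ℓ) t (2 * ℓ * p.2) (sgq Tp Tm ℓ (X p.1)) := by
      refine UM.of_compact ((isCompact_Bg m).prod isCompact_Icc) ?_ fun p hp' => ?_
      · refine continuousOn_spur (x₀ := x₀) ht (by linarith) (fun φ hφ => ?_) ?_ ?_ ?_
        · exact sgq_cont hp hm (hX.comp continuousOn_fst fun p hp' => hp'.1)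
            (fun p hp' => hXp _ hp'.1) (fun p hp' => hXm _ hp'.1) hφ
        · fun_prop
        · exact fun p hp' => lip_sgq hp hm (hXp _ hp'.1) (hXm _ hp'.1)
        · exact fun p hp' u hu => sgq_right hp hm (hXp _ hp'.1) (hXm _ hp'.1) hu
      · have := spur_mem (L := 2 * ℓ) (t := t) (τ := 2 * ℓ * p.2)
          (lip_sgq hp hm (hXp _ hp'.1) (hXm _ hp'.1))
          (fun u hu => sgq_right hp hm (hXp _ hp'.1) (hXm _ hp'.1) hu)
        exact P_mono (by linarith) this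
    have h2 : UM ((A ×ˢ Bg m) ×ˢ Icc (0 : ℝ) 1) (Bg m ×ˢ Icc (0 : ℝ) 1)
        fun p : (E × (Fin m → ℝ)) × ℝ => (p.1.2, p.2) := by
      refine UM.of_dist_le (fun p hp' => ⟨hp'.1.2, hp'.2⟩) fun p _ q _ => ?_
      simp only [Prod.dist_eq]
      exact max_le_max (le_max_right _ _) le_rfl
    exact h1.comp h2
  · intro y v hv ho s
    show spur _ _ _ (sgq Tp Tm ℓ (X v)) = _
    rw [hXo v hv ho]
  · intro y v hv
    show spur (2 * ℓ) t (2 * ℓ * 0) (sgq Tp Tm ℓ (X v)) = _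
    rw [mul_zero]
    exact spur_zero (lip_sgq hp hm (hXp v hv) (hXm v hv)) (fun u hu => sgq_left hp (hXp v hv) hu)
      ht (by linarith)
  · intro y v hv
    show spur (2 * ℓ) t (2 * ℓ * 1) (sgq Tp Tm ℓ (X v)) = _
    rw [mul_one]
    exact spur_end (fun u hu => sgq_right hp hm (hXp v hv) (hXm v hv) hu) le_rfl

/-- **(f), cohomology**: the slant of any class by the family `v ↦ σ_v⁻¹ * c₀ * σ_v` vanishes. -/
theorem Sl_spur {k : Type} [Field k] (h2 : Ok k) (hm1 : 1 ≤ m) {E : Type}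
    [PseudoMetricSpace E] {A : Set E} (hp : Tr Dp x₀ ℓ Tp)
    (hm : Tr Dm x₀ ℓ Tm) (hX : ContinuousOn X (Bg m)) (hXp : ∀ v ∈ Bg m, X v ∈ Dp)
    (hXm : ∀ v ∈ Bg m, X v ∈ Dm) (hXo : ∀ v ∈ Bg m, Out v → X v = xb) (ht : 0 ≤ t)
    {Y : Set (ℝ →ᵇ M)} (hY : P x₀ x₀ (t + 4 * ℓ) ⊆ Y)
    {F : E × (Fin m → ℝ) → (ℝ →ᵇ M)} {f₀ : E → (ℝ →ᵇ M)} (h : IsFm A Y F f₀)
    (hF : ∀ y ∈ A, ∀ v ∈ Jc m, F (y, v) =
      mo (catf (t + 2 * ℓ) (mo (lj (2 * ℓ) (sgq Tp Tm ℓ (X v)) (cst x₀))) (sgq Tp Tm ℓ (X v))))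
    (q : ℕ) (z : Ha (tr (ℝ →ᵇ M)) (on k) Y (q + m)) : Sl h2 hm1 h q z = 0 := by
  obtain ⟨D, D₀, hD, ho, h0, h1⟩ := spur_family A hp hm hX hXp hXm hXo ht
  have hc : IsFm A Y (fun _ : E × (Fin m → ℝ) => cst x₀) (fun _ => cst x₀) := by
    refine ⟨⟨fun p _ => hY (cst_mem x₀ _), fun ε hε => ⟨1, one_pos, fun x _ y _ _ => ?_⟩⟩,
      fun _ _ _ _ _ => rfl⟩
    rw [dist_self]
    exact hε
  rw [Sl_htpy h2 hm1 h hc (D := D) (D₀ := D₀)
    ((hD.mono_right hY).mono (prod_mono (prod_mono le_rfl (Jc_sub_Bg m)) le_rfl))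
    (fun y _ v hv s _ => ho y v (Jc_sub_Bg m (bJ_sub m hv)) (out_of_bJ hv) s)
    (fun y hy v hv => (h0 y v (Jc_sub_Bg m hv)).trans (hF y hy v hv).symm)
    (fun y _ v hv => h1 y v (Jc_sub_Bg m hv)) q]
  exact Sl_const h2 hm1 hc (fun _ _ _ _ => rfl) q z

end family

end Vale.Agent.P216.Ch2.H388
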