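import Vale.Agent.P216.Ch2.Ns
import Vale.Agent.P216.Ch2.H388.Spur
import Vale.Agent.P216.Ch2.H456.SFam

/-!
# The spur and the waiting homotopies for the families of `H456/SFam` (P216, block B43, item (5))
-/

set_option linter.all false

open Set Filter Topology BoundedContinuousFunction Matrix

namespace Vale.Agent.P216.Ch2.H388

open Vale.Agent.P216.H388

open Vale.Agent.P216.PS Vale.Agent.P216.MV337 Vale.Agent.P216.Ch2.MV337 Vale.Agent.P216.Ch2.H456 Vale.Agent.P216.Ch2.H962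
open Vale.Agent.P216.AS Vale.Agent.P216.Ch2.AS
open Vale.Agent.P216.Ch2.H901 (Hp tr on)

/-! ### Degree zero -/

section zero

variable {k : Type} [Field k] {E : Type} [PseudoMetricSpace E]

theorem d_pair (c : (Fin 1 → E) → k) (a b : E) :
    P265.AS.d c ![a, b] = c ![b] - c ![a] := by
  rw [P265.AS.d_succ_apply, P265.AS.d_zero_apply]
  simp only [Matrix.tail_cons, Matrix.head_cons]

/-- **A class of degree `0` which vanishes at a point vanishes on the points joined to it.** -/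
theorem res_zero_of_joined {A B : Set E} {p : E} (hp : {p} ⊆ B) (hAB : A ⊆ B)
    (hj : ∀ x ∈ A, JoinedIn B x p) (z : Ha (tr E) (on k) B 0)
    (hz : res (a := tr E) (χ := on k) hp 0 z = 0) :
    res (a := tr E) (χ := on k) hAB 0 z = 0 := by
  obtain ⟨c, hc, rfl⟩ := H.exists_mk z
  obtain ⟨-, ε, hε, hd⟩ := mem_Zc_abs.1 hc
  have h1 : ∀ a ∈ B, ∀ b ∈ B, dist a b < ε → c ![b] = c ![a] := by
    intro a ha b hb hab
    have h2 := hd ![a, b] ⟨fun i => by fin_cases i <;> assumption, fun i j => by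
      fin_cases i <;> fin_cases j <;> simp [dist_comm b a, hab, hε]⟩
    rw [d_pair] at h2
    exact sub_eq_zero.1 h2
  have h2 : c ![p] = 0 := by
    have h3 := H.mk_eq_zero.1 hz
    rw [mem_Bc_zero] at h3
    obtain ⟨-, η, hη, h4⟩ := h3
    exact h4 ![p] ⟨fun i => by fin_cases i; rfl, fun i j => by
      fin_cases i; fin_cases j; simpa using hη⟩
  refine H.mk_eq_zero.2 (mem_Bc_zero.2 ⟨fun i => i.elim, 1, one_pos, fun x hx => ?_⟩)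
  have hx0 := hx.1 0
  obtain ⟨γ, hγ⟩ := hj (x 0) hx0
  have hl : IsLocallyConstant fun s => c ![γ s] := by
    rw [IsLocallyConstant.iff_eventually_eq]
    intro s
    have h5 : ∀ᶠ r in 𝓝 s, dist (γ r) (γ s) < ε :=
      (γ.continuous.tendsto s).eventually (Metric.ball_mem_nhds _ hε)
    filter_upwards [h5] with r hr
    exact h1 _ (hγ s) _ (hγ r) (by rwa [dist_comm])
  have h6 := hl.apply_eq_of_preconnectedSpace 0 1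
  rw [γ.source, γ.target, h2] at h6
  have h7 : x = ![x 0] := by
    funext i
    fin_cases i
    rfl
  rw [h7]
  exact h6

end zero

/-! ### The families of `SFam` -/

section fam

variable {M : Type} [MetricSpace M] [CompactSpace M] {x₀ : M} {ℓ t : ℝ} {Tp Tm : M → ℝ → M} {m : ℕ}
  {D : ℝ → (Fin (m + 1) → ℝ) → (Fin (m + 1) → ℝ)} {b : Fin (m + 1) → ℝ}
  {C : Caps (m + 1) M x₀}

/-- **(e)** the base families `sL xb`, `sR t xb` are homotopic to the inclusion. -/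
theorem exists_wait [SimplyConnectedSpace M] {ρ : ℝ} (hρ : 0 < ρ) (hU : LS.UniqSeg M ρ)
    (hp : Tr C.Dp x₀ ℓ Tp) (hm : Tr C.Dm x₀ ℓ Tm) :
    ∃ K, 0 ≤ K ∧ ∀ x ∈ C.Dp ∩ C.Dm, ∀ t, 0 ≤ t →
      Hp (P x₀ x₀ t) ∅ (P x₀ x₀ (t + 2 * ℓ + K)) ∅ (sL Tp Tm ℓ x) id ∧
      Hp (P x₀ x₀ t) ∅ (P x₀ x₀ (t + 2 * ℓ + K)) ∅ (sR Tp Tm ℓ t x) id := by
  obtain ⟨K, hK, h⟩ := exists_hp_mul hρ hU hp hm
  exact ⟨K, hK, fun x hx t ht => h x hx.1 hx.2 t ht⟩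

/-- **(e), cohomology**: pullback by `sL xb`, `sR t xb` is restriction, after the time `K`. -/
theorem exists_wait_pull [SimplyConnectedSpace M] {ρ : ℝ} (hρ : 0 < ρ) (hU : LS.UniqSeg M ρ)
    (hp : Tr C.Dp x₀ ℓ Tp) (hm : Tr C.Dm x₀ ℓ Tm) (k : Type) [Field k] :
    ∃ K, 0 ≤ K ∧ ∀ x ∈ C.Dp ∩ C.Dm, ∀ t, 0 ≤ t → ∀ T T', t + 2 * ℓ + K ≤ T' →
      ∀ (hT : P x₀ x₀ T ⊆ P x₀ x₀ T') (h0 : P x₀ x₀ t ⊆ P x₀ x₀ T') (n : ℕ)
        (z : Ha (tr (ℝ →ᵇ M)) (on k) (P x₀ x₀ T') n),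
      (∀ hL : IsMap (tr (ℝ →ᵇ M)) (tr (ℝ →ᵇ M)) (P x₀ x₀ t) (P x₀ x₀ T) (sL Tp Tm ℓ x),
        pull (on k) hL n (res hT n z) = res h0 n z) ∧
      ∀ hR : IsMap (tr (ℝ →ᵇ M)) (tr (ℝ →ᵇ M)) (P x₀ x₀ t) (P x₀ x₀ T) (sR Tp Tm ℓ t x),
        pull (on k) hR n (res hT n z) = res h0 n z := by
  obtain ⟨K, hK, h⟩ := exists_wait hρ hU hp hm
  refine ⟨K, hK, fun x hx t ht T T' hT' hT h0 n z => ?_⟩
  obtain ⟨h1, h2⟩ := h x hx t ht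
  have key : ∀ f : (ℝ →ᵇ M) → (ℝ →ᵇ M),
      Hp (P x₀ x₀ t) ∅ (P x₀ x₀ (t + 2 * ℓ + K)) ∅ f id →
      ∀ hf : IsMap (tr (ℝ →ᵇ M)) (tr (ℝ →ᵇ M)) (P x₀ x₀ t) (P x₀ x₀ T) f,
        pull (on k) hf n (res hT n z) = res h0 n z := by
    intro f H₁ hf
    have hf' : IsMap (tr (ℝ →ᵇ M)) (tr (ℝ →ᵇ M)) (P x₀ x₀ t) (P x₀ x₀ T') f :=
      hf.mono le_rfl (hf.mapsX.mono_right hT)
    have e1 : pull (on k) hf n (res hT n z) = pull (on k) hf' n z := by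
      obtain ⟨c, hc, rfl⟩ := H.exists_mk z
      rfl
    rw [e1, pull_eq_res_of_hp H₁ (P_mono hT') h0 hf' n]
  exact ⟨key _ h1, key _ h2⟩

/-- the family `g ↦ σ_v⁻¹ * g * σ_v` -/
noncomputable def FmT (C : Caps (m + 1) M x₀) (Tp Tm : M → ℝ → M) (ℓ : ℝ)
    (D : ℝ → (Fin (m + 1) → ℝ) → (Fin (m + 1) → ℝ)) (t : ℝ) (p : (ℝ →ᵇ M) × (Fin m → ℝ)) : ℝ →ᵇ M :=
  sR Tp Tm ℓ (t + 2 * ℓ) (xx C D p.2) (sL Tp Tm ℓ (xx C D p.2) p.1)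

theorem isFm_T (hp : Tr C.Dp x₀ ℓ Tp) (hm : Tr C.Dm x₀ ℓ Tm) (h : Coll m D b) (ht : 0 ≤ t) :
    IsFm (P x₀ x₀ t) (P x₀ x₀ (t + 2 * ℓ + 2 * ℓ)) (FmT C Tp Tm ℓ D t)
      (fun g => sR Tp Tm ℓ (t + 2 * ℓ) (C.ψ b) (sL Tp Tm ℓ (C.ψ b) g)) := by
  have hl := hp.nonneg
  have hp' := hp.mono (D := C.Dp ∩ C.Dm) inter_subset_left
  have hm' := hm.mono (D := C.Dp ∩ C.Dm) inter_subset_right
  have hX : ContinuousOn (fun p : (ℝ →ᵇ M) × (Fin m → ℝ) => xx C D p.2)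
      (P x₀ x₀ t ×ˢ Bg m) := (continuous_xx C h).comp_continuousOn continuousOn_snd
  refine ⟨UM.of_compact ((isCompact_P _ _ _).prod (isCompact_Bg m)) ?_ fun p hq => ?_,
    fun g hg v hv ho => ?_⟩
  · exact continuousOn_sR hp' hm' (by linarith) hX
      (continuousOn_sL hp' hm' ht hX continuousOn_fst (fun p _ => xx_mem C h p.2) fun p hq => hq.1)
      (fun p _ => xx_mem C h p.2) fun p hq => sL_mem hp' hm' (xx_mem C h p.2) ht hq.1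
  · exact sR_mem hp' hm' (xx_mem C h p.2) (by linarith) (sL_mem hp' hm' (xx_mem C h p.2) ht hq.1)
  · show sR Tp Tm ℓ (t + 2 * ℓ) (xx C D v) (sL Tp Tm ℓ (xx C D v) g) = _
    rw [xx_out C h ho]

/-- **(f)** the slant by `FmT` of any class vanishes at the constant loop. -/
theorem res_Sl_FmT {k : Type} [Field k] (h2 : Ok k) (hm1 : 1 ≤ m) (hp : Tr C.Dp x₀ ℓ Tp)
    (hm : Tr C.Dm x₀ ℓ Tm) (h : Coll m D b) (ht : 0 ≤ t) {Y : Set (ℝ →ᵇ M)}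
    (hY : P x₀ x₀ (t + 4 * ℓ) ⊆ Y) {f₀ : (ℝ →ᵇ M) → (ℝ →ᵇ M)}
    (hF : IsFm (P x₀ x₀ t) Y (FmT C Tp Tm ℓ D t) f₀) (q : ℕ)
    (z : Ha (tr (ℝ →ᵇ M)) (on k) Y (q + m)) (hc : {cst x₀} ⊆ P x₀ x₀ t) :
    res (a := tr (ℝ →ᵇ M)) (χ := on k) hc q (Sl h2 hm1 hF q z) = 0 := by
  have hF' : IsFm {cst x₀} Y (FmT C Tp Tm ℓ D t) f₀ := hF.mono hc
  have e1 : res (a := tr (ℝ →ᵇ M)) (χ := on k) hc q (Sl h2 hm1 hF q z) = Sl h2 hm1 hF' q z := by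
    have := pull_Sl h2 hm1 hF (IsMap.id_of_subset (a := tr (ℝ →ᵇ M)) hc) hF'
      (fun _ _ _ _ => rfl) (fun _ _ => rfl) q z
    rw [← this]
    exact (LinearMap.congr_fun (pull_eq_res (a := tr (ℝ →ᵇ M)) (χ := on k) hc
      (IsMap.id_of_subset hc) fun _ _ => rfl) _).symm
  rw [e1]
  refine Sl_spur (xb := C.ψ b) h2 hm1 hp hm (continuous_xx C h).continuousOn
    (fun v _ => (xx_mem C h v).1) (fun v _ => (xx_mem C h v).2) (fun v _ ho => xx_out C h ho) ht hY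
    hF' (fun g hg v hv => ?_) q z
  rw [mem_singleton_iff.1 hg]
  rfl

/-- **(f), degree `0`**: the slant by `FmT` of a class of degree `m` vanishes, after restriction to
`P x₀ x₀ s` with `s + K ≤ t`. -/
theorem exists_T1 [SimplyConnectedSpace M] {ρ : ℝ} (hρ : 0 < ρ) (hU : LS.UniqSeg M ρ) :
    ∃ K, 0 ≤ K ∧ ∀ {k : Type} [Field k] (h2 : Ok k) (hm1 : 1 ≤ m) {Tp Tm : M → ℝ → M} {ℓ : ℝ}
      (hp : Tr C.Dp x₀ ℓ Tp) (hm : Tr C.Dm x₀ ℓ Tm) (h : Coll m D b) {s t : ℝ} (hs : 0 ≤ s)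
      (hst : s + K ≤ t) {Y : Set (ℝ →ᵇ M)} (hY : P x₀ x₀ (t + 4 * ℓ) ⊆ Y)
      {f₀ : (ℝ →ᵇ M) → (ℝ →ᵇ M)} (hF : IsFm (P x₀ x₀ t) Y (FmT C Tp Tm ℓ D t) f₀)
      (z : Ha (tr (ℝ →ᵇ M)) (on k) Y (0 + m)) (hr : P x₀ x₀ s ⊆ P x₀ x₀ t),
      res (a := tr (ℝ →ᵇ M)) (χ := on k) hr 0 (Sl h2 hm1 hF 0 z) = 0 := by
  obtain ⟨K, hK, -, hj⟩ := H250.pi0 hρ hU
  refine ⟨K, hK, fun {k} _ h2 hm1 {Tp Tm ℓ} hp hm h {s t} hs hst {Y} hY {f₀} hF z hr => ?_⟩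
  have hc : {cst x₀} ⊆ P x₀ x₀ t := singleton_subset_iff.2 (cst_mem x₀ t)
  refine res_zero_of_joined hc hr (fun w hw => ?_) _
    (res_Sl_FmT h2 hm1 hp hm h (by linarith) hY hF 0 z hc)
  exact (hj x₀ x₀ s hs w hw _ (cst_mem x₀ s)).mono (P_mono hst)

end fam

end Vale.Agent.P216.Ch2.H388
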